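import Vale.Agent.P050.Main

theorem Vale.Agent.Results.P050.Disproof.result :
    ∃ (W : Type) (_ : Fintype W) (H : SimpleGraph W), H.IsBipartite ∧ H ≠ ⊥ ∧
      ∃ (V : Type) (_ : Fintype V) (_ : Nonempty V) (G : SimpleGraph V),
        (Nat.card (H →g G) : ℝ) / (Fintype.card V : ℝ) ^ Fintype.card W <
          (2 * (Nat.card G.edgeSet : ℝ) / (Fintype.card V : ℝ) ^ 2) ^ Nat.card H.edgeSet :=
  ⟨P050.VH, inferInstance, P050.HG, P050.HG_bip, P050.HG_ne_bot, P050.main⟩
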